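import Vale.Agent.P195.Disproof.Final

/-!
The Auslander-Reiten conjecture is false: over every field of characteristic zero a finite
dimensional algebra has a nonprojective finitely generated module without extensions of positive
degree by itself and by the algebra.
-/

open CategoryTheory CategoryTheory.Abelian

namespace Vale.Agent.Results.P195.AuslanderReitenFalse

theorem result (k : Type) [Field k] [CharZero k] :
    ∃ (A : Type) (_ : Ring A) (_ : Algebra k A) (M : ModuleCat.{0} A),
      Module.Finite k A ∧ Module.Finite A M ∧ ¬ Module.Projective A M ∧
      ∀ i : ℕ, 1 ≤ i → Subsingleton (Ext M M i) ∧ Subsingleton (Ext M (ModuleCat.of A A) i) :=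
  Vale.Agent.P195.Disproof.counterexample k

end Vale.Agent.Results.P195.AuslanderReitenFalse
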