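import Vale.Agent.P195.Gap.Main
import Vale.Agent.P195.Gap.Defs

/-!
Over a nonnegatively graded finite-dimensional algebra, a module with no self-extensions and no
extensions by the algebra is projective as soon as it has a graded projective resolution with
sufficiently many degree gaps (for example one linear for sufficiently many steps); only
boundedly many extension groups are needed.
-/

universe u v w

open CategoryTheory CategoryTheory.Abelian Vale.Agent.P195.Gap

namespace Vale.Agent.Results.P195.GappedResolution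

theorem result (k : Type v) [Field k] (T : Type u) [Ring T] [Algebra k T] [Module.Finite k T]
    (𝒜 : ℤ → Submodule k T) [GradedAlgebra 𝒜]
    (L : ℕ) (hsupp : ∀ m : ℤ, m < 0 ∨ (L : ℤ) < m → 𝒜 m = ⊥)
    (ι : Type w) [Fintype ι] (e : ι → T) (he₀ : ∀ j, e j ∈ 𝒜 0) (he : ∀ j, e j * e j = e j)
    (n : ℕ → ℕ) (t : (i : ℕ) → Fin (n i) → ι) (deg : (i : ℕ) → Fin (n i) → ℤ)
    (M : ModuleCat.{u} T)
    (d : (i : ℕ) → Proj e (t (i + 1)) →ₗ[T] Proj e (t i)) (ε : Proj e (t 0) →ₗ[T] M)
    (hres : IsResolution d ε)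
    (hhom : ∀ i, IsHomogeneous 𝒜 he (deg (i + 1)) (deg i) (d i))
    (R : ℕ) (hgap : HasGaps deg L (Fintype.card ι) R) (hM : SatisfiesARUpTo M R) :
    Module.Projective T M := by
  classical
  obtain ⟨hε, h0, hd⟩ := hres
  obtain ⟨c, K, A, hcard, hA⟩ := hgap
  exact projective_of_gaps 𝒜 he₀ he deg d (fun i l l' => hhom i l l') hd L c K hsupp ε hε h0 R A
    hcard hA (fun i hi hi' => (hM i hi hi').2) (fun i hi hi' => (hM i hi hi').1)

end Vale.Agent.Results.P195.GappedResolution
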