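import Vale.Agent.P195.Graded.Gradable
import Vale.Agent.P195.Graded.Syzygy

/-!
The Auslander-Reiten conjecture, with an explicit bound, for modules with a syzygy generated in one
degree, over positively graded algebras with semisimple degree zero part.
-/

universe u v

open CategoryTheory CategoryTheory.Abelian
open Vale.Agent.P195 Vale.Agent.P195.Graded

namespace Vale.Agent.Results.P195.GradedLinearModules

theorem result (k : Type v) [Field k] (R : Type u) [Ring R] [Algebra k R] [Module.Finite k R]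
    (𝒜 : ℕ → Submodule k R) [GradedAlgebra 𝒜] (hss : IsSemisimpleRing (𝒜 0))
    (D : ℕ) (hD : ∀ d, D < d → 𝒜 d = ⊥) (a : ℕ) (M K : ModuleCat.{u} R) [Module.Finite R M]
    (hK : IsSyzygy a M K)
    (hR : ∀ i : ℕ, 1 ≤ i → i ≤ (Module.finrank k R + 3) * D + 1 + a →
      Subsingleton (Ext M (ModuleCat.of R R) i))
    (hM : ∀ i : ℕ, 1 ≤ i → i ≤ (Module.finrank k R + 3) * D + 1 → Subsingleton (Ext M M i)) :
    (∀ ℳ : ℕ → AddSubgroup K, DirectSum.IsInternal ℳ →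
        (∀ i j, ∀ r ∈ 𝒜 i, ∀ x ∈ ℳ j, r • x ∈ ℳ (i + j)) →
        (Submodule.span R (ℳ 0 : Set K) = ⊤ ∨
          ((∀ d, D < d → ℳ d = ⊥) ∧ ∀ (f : K →ₗ[R] R) (s : ℕ),
            (∀ d, ∀ x ∈ ℳ d, (s ≤ d → f x ∈ 𝒜 (d - s)) ∧ (d < s → f x = 0)) →
            (∀ x ∈ ℳ 0, f x = 0) → f = 0)) →
        Module.Projective R M) ∧
      ((∀ i, 2 ≤ i → ∀ r ∈ 𝒜 i, ∀ x : K, r • x = 0) → Module.Projective R M) ∧
      (CharZero k → ∀ e ∈ 𝒜 0, (∀ b ∈ 𝒜 0, ∃ c : k, e * b * e = c • e) →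
        ∀ x : K, e • x = x → Submodule.span R {x} = ⊤ → Module.Projective R M) := by
  have : IsArtinianRing R := IsArtinianRing.of_finite k R
  have : Module.Finite R K := IsSyzygy.finite a inferInstance hK
  obtain ⟨hKR, hKK, hdown⟩ := syzygy_transfer ((Module.finrank k R + 3) * D + 1) a
    inferInstance hK hR hM
  suffices main : (∀ ℳ : ℕ → AddSubgroup K, DirectSum.IsInternal ℳ →
        (∀ i j, ∀ r ∈ 𝒜 i, ∀ x ∈ ℳ j, r • x ∈ ℳ (i + j)) →
        (Submodule.span R (ℳ 0 : Set K) = ⊤ ∨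
          ((∀ d, D < d → ℳ d = ⊥) ∧ ∀ (f : K →ₗ[R] R) (s : ℕ),
            (∀ d, ∀ x ∈ ℳ d, (s ≤ d → f x ∈ 𝒜 (d - s)) ∧ (d < s → f x = 0)) →
            (∀ x ∈ ℳ 0, f x = 0) → f = 0)) →
        Module.Projective R K) ∧
      ((∀ i, 2 ≤ i → ∀ r ∈ 𝒜 i, ∀ x : K, r • x = 0) → Module.Projective R K) ∧
      (CharZero k → ∀ e ∈ 𝒜 0, (∀ b ∈ 𝒜 0, ∃ c : k, e * b * e = c • e) →
        ∀ x : K, e • x = x → Submodule.span R {x} = ⊤ → Module.Projective R K) from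
    ⟨fun ℳ h1 h2 h3 => hdown (main.1 ℳ h1 h2 h3), fun h => hdown (main.2.1 h),
      fun h e he hs x hx hg => hdown (main.2.2 h e he hs x hx hg)⟩
  clear hdown hR hM hK
  let : Module k K := Module.compHom K (algebraMap k R)
  have : IsScalarTower k R K := IsScalarTower.of_algebraMap_smul fun _ _ => rfl
  have : FiniteDimensional k K := Module.Finite.trans R K
  obtain ⟨S, hSD, hSn⟩ := exists_setup 𝒜 D hD hss
  subst hSD
  have hb : S.bound ≤ (Module.finrank k R + 3) * S.D + 1 := by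
    simp only [Setup.bound]
    gcongr
  have evM : ∀ i, 1 ≤ i → i ≤ S.bound → EV R K K i := fun i h1 h2 => hKK i h1 (h2.trans hb)
  have evR : ∀ i, 1 ≤ i → i ≤ S.bound → EV R K R i := fun i h1 h2 => hKR i h1 (h2.trans hb)
  have general : ∀ ℳ : ℕ → Submodule k K, ∀ (hI : DirectSum.IsInternal ℳ)
      (hmul : ∀ i j, ∀ r ∈ 𝒜 i, ∀ x ∈ ℳ j, r • x ∈ ℳ (i + j)) (hd : ∀ d, S.D < d → ℳ d = ⊥),
      (∀ (f : K →ₗ[R] R) (s : ℕ),
        (∀ d, ∀ x ∈ ℳ d, (s ≤ d → f x ∈ 𝒜 (d - s)) ∧ (d < s → f x = 0)) →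
        (∀ x ∈ ℳ 0, f x = 0) → f = 0) → Module.Projective R K := by
    intro ℳ hI hmul hd hcrit
    refine S.projective_of_maps _ K (Grd.ofInternal ℳ hI S.D hd hmul) le_rfl
      (fun d hd' => Grd.ofInternal_π_of_lt _ _ _ _ _ d hd') evM evR fun δ hδ f hf h0 => ?_
    obtain ⟨s, rfl⟩ : ∃ s : ℕ, δ = -(s : ℤ) := ⟨(-δ).toNat, by omega⟩
    have hπ : ∀ (d : ℕ), ∀ x ∈ ℳ d, (Grd.ofInternal ℳ hI S.D hd hmul).π (d : ℤ) x = x := by
      intro d x hx
      exact (projInt_apply_of_mem ℳ hI hx _).trans (if_pos rfl)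
    refine hcrit f s (fun d x hx => ⟨fun hsd => ?_, fun hds => ?_⟩) fun x hx => ?_
    · rw [← hπ d x hx, ← hf]
      rw [show (d : ℤ) + -(s : ℤ) = ((d - s : ℕ) : ℤ) by omega]
      exact projInt_mem 𝒜 _ _ _
    · rw [← hπ d x hx, ← hf, selfGrd, Grd.ofInternal_π_of_lt _ _ _ _ _ _ (Or.inl (by omega))]
      rfl
    · rw [← hπ 0 x hx]
      exact h0 x
  have generated : ∀ ℳ : ℕ → Submodule k K, DirectSum.IsInternal ℳ →
      (∀ i j, ∀ r ∈ 𝒜 i, ∀ x ∈ ℳ j, r • x ∈ ℳ (i + j)) →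
      Submodule.span R (ℳ 0 : Set K) = ⊤ → Module.Projective R K := fun ℳ hI hmul hgen =>
    general ℳ hI hmul (eq_bot_of_generated S.D hD ℳ hI hmul hgen) fun f _ _ h0 =>
      LinearMap.ext_on hgen h0
  refine ⟨fun ℳ hI hmul h => ?_, fun hkill => ?_, fun hchar e he hscal x hx hgen => ?_⟩
  · let ℳ' : ℕ → Submodule k K := fun d =>
      { ℳ d with
        smul_mem' := fun c x hx => by
          have := hmul 0 d _ (SetLike.algebraMap_mem_graded 𝒜 c) x hx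
          rwa [zero_add] at this }
    have hI' : DirectSum.IsInternal ℳ' := hI
    rcases h with hgen | ⟨hd, hcrit⟩
    · exact generated ℳ' hI' hmul hgen
    · exact general ℳ' hI' hmul (fun d hdd => (Submodule.eq_bot_iff _).2 fun x hx =>
        AddSubgroup.mem_bot.1 (hd d hdd ▸ (show x ∈ ℳ d from hx))) hcrit
  · obtain ⟨ℳ, hI, hmul, hgen⟩ := exists_grading_of_killed hss hkill
    exact generated ℳ hI hmul hgen
  · obtain ⟨ℳ, hI, hmul, hgen'⟩ := exists_grading_of_top S.D hD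
      (evM 1 le_rfl (Nat.le_add_left 1 _)) he hscal x hx hgen
    exact generated ℳ hI hmul hgen'

end Vale.Agent.Results.P195.GradedLinearModules
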