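import Vale.Agent.P195.Either
import Vale.Agent.P195.CubeZeroIT

/-!
The Auslander-Reiten conjecture, with uniform finite bounds, for algebras which are Igusa-Todorov
on one side.
-/

universe u v

open CategoryTheory CategoryTheory.Abelian
open Vale.Agent.P195

namespace Vale.Agent.Results.P195.IgusaTodorovSided

theorem result (k : Type v) [CommRing k] [IsArtinianRing k] (R : Type u) [Ring R]
    [Algebra k R] [Module.Finite k R] :
    (∀ (n : ℕ) (V : ModuleCat.{u} R), Module.Finite R V →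
        ∃ N : ℕ, ∀ M : ModuleCat.{u} R, Module.Finite R M →
          (∀ i : ℕ, 1 ≤ i → i ≤ N →
            Subsingleton (Ext M M i) ∧ Subsingleton (Ext M (ModuleCat.of R R) i)) →
          (∀ (a : ℕ) (X : ModuleCat.{u} R), IsSyzygy a M X →
            ∃ K, IsSyzygy n X K ∧ HasAddPresentation V K) → Module.Projective R M) ∧
      ((IsIgusaTodorov R ∨ IsIgusaTodorov Rᵐᵒᵖ) →
        ∃ N : ℕ, ∀ M : ModuleCat.{u} R, Module.Finite R M →
          (∀ i : ℕ, 1 ≤ i → i ≤ N →
            Subsingleton (Ext M M i) ∧ Subsingleton (Ext M (ModuleCat.of R R) i)) →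
          Module.Projective R M) ∧
      ((∀ a ∈ Ring.jacobson R, ∀ b ∈ Ring.jacobson R, ∀ c ∈ Ring.jacobson R, a * b * c = 0) →
        IsIgusaTodorov R) ∧
      (∀ A B : Ideal R, (∀ a ∈ A, ∀ b ∈ B, ∀ c ∈ Ring.jacobson R, a * b * c = 0) →
        (∃ W : ModuleCat.{u} R, Module.Finite R W ∧ ∀ Y : ModuleCat.{u} R, Module.Finite R Y →
          (∀ a ∈ A, ∀ y : Y, a • y = 0) → InAdd W Y) →
        (∃ W : ModuleCat.{u} R, Module.Finite R W ∧ ∀ Y : ModuleCat.{u} R, Module.Finite R Y →
          (∀ b ∈ B, ∀ y : Y, b • y = 0) → InAdd W Y) →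
        IsIgusaTodorov R) := by
  have : IsArtinianRing R := IsArtinianRing.of_finite k R
  exact ⟨fun n V hV => exists_bound_of_addPresentation k n V hV,
    fun h => exists_bound_of_igusaTodorov k h, isIgusaTodorov_of_cubeZero,
    fun A B h ⟨WA, hWA, hA⟩ ⟨WB, hWB, hB⟩ => isIgusaTodorov_of_ideals A B h WA WB hWA hWB hA hB⟩

end Vale.Agent.Results.P195.IgusaTodorovSided
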